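import Vale.Agent.P249x.Main

namespace Vale.Agent.Results.P249.SubpolynomialDimension

open MeasureTheory Vale.Agent.P249x

universe u

/-- For every `p > 1` and distortion `1 + ε`, finite subsets of `L_p` need dimension only `n ^ o(1)`;
in particular `o(n)` for every distortion `D > 1`. -/
theorem result : ∀ (p : ℝ) [Fact (1 ≤ ENNReal.ofReal p)], 1 < p →
    (∀ ε : ℝ, 0 < ε → ∀ κ : ℝ, 0 < κ → ∃ C : ℝ, ∀ (n : ℕ), 2 ≤ n →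
      ∀ (α : Type u) [MeasurableSpace α] (μ : Measure α) (x : Fin n → Lp ℝ (ENNReal.ofReal p) μ),
      ∃ (d : ℕ) (f : Fin n → Fin d → ℝ) (s : ℝ),
        (d : ℝ) ≤ C * (n : ℝ) ^ κ ∧ 0 < s ∧
        ∀ i j, s * ‖x i - x j‖ ≤ (∑ k, |f i k - f j k| ^ p) ^ (1/p) ∧
          (∑ k, |f i k - f j k| ^ p) ^ (1/p) ≤ (1 + ε) * (s * ‖x i - x j‖)) ∧
    ∀ D : ℝ, 1 < D → ∀ c : ℝ, 0 < c → ∃ n₀ : ℕ, ∀ n : ℕ, n₀ ≤ n →
      ∀ (α : Type u) [MeasurableSpace α] (μ : Measure α) (x : Fin n → Lp ℝ (ENNReal.ofReal p) μ),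
      ∃ (d : ℕ) (f : Fin n → Fin d → ℝ) (s : ℝ),
        (d : ℝ) ≤ c * n ∧ 0 < s ∧
        ∀ i j, s * ‖x i - x j‖ ≤ (∑ k, |f i k - f j k| ^ p) ^ (1/p) ∧
          (∑ k, |f i k - f j k| ^ p) ^ (1/p) ≤ D * (s * ‖x i - x j‖) := by
  intro p inst hp
  refine ⟨fun ε hε κ hκ => ?_, fun D hD c hc => sublinear hp hD hc⟩
  obtain ⟨C, -, h⟩ := subpolynomial.{u} (p := p) hp hε hκ
  exact ⟨C, h⟩

end Vale.Agent.Results.P249.SubpolynomialDimension
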