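import Vale.Agent.P249.Lower.Main

namespace Vale.Agent.Results.P249.SuperlogLowerBound

open MeasureTheory

/-- For every `p > 2` and every distortion `D`: some `n`-point subsets of `L_p` need dimension at
least `c (log n / log log n) ^ (p / 2)`; in particular more than any multiple of `log n`. -/
theorem result : ∀ (p : ℝ) [Fact (1 ≤ ENNReal.ofReal p)], 2 < p → ∀ D : ℝ, 0 < D →
    (∃ c : ℝ, 0 < c ∧ ∃ n₀ : ℕ, ∀ n : ℕ, n₀ ≤ n →
      ∃ (α : Type) (_ : MeasurableSpace α) (μ : Measure α) (x : Fin n → Lp ℝ (ENNReal.ofReal p) μ),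
        Function.Injective x ∧ ∀ (d : ℕ) (f : Fin n → Fin d → ℝ) (s : ℝ), 0 < s →
          (∀ i j, s * ‖x i - x j‖ ≤ (∑ k, |f i k - f j k| ^ p) ^ (1/p) ∧
            (∑ k, |f i k - f j k| ^ p) ^ (1/p) ≤ D * (s * ‖x i - x j‖)) →
          c * (Real.log n / Real.log (Real.log n)) ^ (p / 2) ≤ d) ∧
    ∀ K : ℝ, ∃ n₀ : ℕ, ∀ n : ℕ, n₀ ≤ n →
      ∃ (α : Type) (_ : MeasurableSpace α) (μ : Measure α) (x : Fin n → Lp ℝ (ENNReal.ofReal p) μ),
        Function.Injective x ∧ ∀ (d : ℕ) (f : Fin n → Fin d → ℝ) (s : ℝ), 0 < s →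
          (∀ i j, s * ‖x i - x j‖ ≤ (∑ k, |f i k - f j k| ^ p) ^ (1/p) ∧
            (∑ k, |f i k - f j k| ^ p) ^ (1/p) ≤ D * (s * ‖x i - x j‖)) →
          K * Real.log n < d := by
  intro p inst hp D hD
  obtain ⟨c, hc, n₀, h⟩ := Vale.Agent.P249.Lower.exists_lower p hp hD
  refine ⟨⟨c, hc, n₀, h⟩, fun K => ?_⟩
  obtain ⟨n₁, hn₁⟩ := Filter.eventually_atTop.1 (Vale.Agent.P249.Lower.eventually_superlog hp hc K)
  refine ⟨max n₀ n₁, fun n hn => ?_⟩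
  obtain ⟨α, mα, μ, x, hx, hd⟩ := h n ((le_max_left _ _).trans hn)
  exact ⟨α, mα, μ, x, hx, fun d f s hs hf =>
    lt_of_lt_of_le (hn₁ n ((le_max_right _ _).trans hn)) (hd d f s hs hf)⟩

end Vale.Agent.Results.P249.SuperlogLowerBound
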